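import Crest.Agent.X212.Taub88.Alg
import Crest.Agent.X212.Wz78.Var
import Crest.Agent.X212.Taub88.Qp

-- ▼ part X212/Taub88/Har
section

/-!
# Row 212, TAUB (helper88): the covariant derivative of an almost Kaehler form
-/

set_option autoImplicit false
set_option linter.unusedSectionVars false

open scoped Manifold ContDiff Topology
open Finset Filter

noncomputable section
namespace Crest.Agent.X212.Taub88
open Wz78 Sob92

variable {E H : Type*} [NormedAddCommGroup E] [NormedSpace ℝ E] [TopologicalSpace H]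
  {I : ModelWithCorners ℝ E H} {M : Type*} [TopologicalSpace M] [ChartedSpace H M]
  {V : Type*} [NormedAddCommGroup V] [NormedSpace ℝ V]
  {ι : Type*} [Fintype ι] [IsManifold I 1 M]

section defs
variable (I) (e : ι → (x : M) → TangentSpace I x)

/-- exterior derivative of a two-form, one third -/
def d3 (c : ι → ι → ι → M → ℝ) (θ : ι → ι → M → ℝ) (a b m : ι) : M → ℝ :=
  fun x => dv I (e a) (θ b m) x - ∑ k, c a b k x * θ k m x

/-- an almost Kaehler form -/
structure AK (P : ι → ι → M → ℝ) (c : ι → ι → ι → M → ℝ) (θ : ι → ι → M → ℝ) : Prop where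
  sm : ∀ a b x, SA I (θ a b) x
  cx : ∀ x, Cx (fun a b => P a b x) fun a b => θ a b x
  cl : ∀ a b m x, d3 I e c θ a b m x + d3 I e c θ b m a x + d3 I e c θ m a b x = 0

/-- covariant derivative of a two-form -/
def dT (Γ : ι → ι → ι → M → ℝ) (θ : ι → ι → M → ℝ) (a b m : ι) : M → ℝ :=
  fun x => dv I (e a) (θ b m) x - ∑ k, Γ a b k x * θ k m x - ∑ k, θ b k x * Γ a m k x

end defs

/-- the spin lift of a two-form field -/
def sp (ρ : ι → M → V →L[ℝ] V) (θ : ι → ι → M → ℝ) : M → V →L[ℝ] V :=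
  fun x => spin (fun a => ρ a x) fun a b => θ a b x

variable {e : ι → (x : M) → TangentSpace I x} {P θ : ι → ι → M → ℝ}
  {c Γ : ι → ι → ι → M → ℝ} {A ρ : ι → M → V →L[ℝ] V} {p : M → V →L[ℝ] V} {u : M → V} {x : M}

theorem Cx.proj' {P θ : ι → ι → ℝ} (h : Cx P θ) (hP : Pr P) (a b : ι) :
    ∑ k, P a k * θ k b = θ a b := by
  rw [h.skew a b, ← h.proj b a, ← sum_neg_distrib]
  exact sum_congr rfl fun k _ => by rw [h.skew b k, hP.symm k a]; ring

theorem sm_dT (F : Wz78.Frm I e P c) (L : LC I e P c Γ) (h : ∀ a b, SA I (θ a b) x) (a b m : ι) :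
    SA I (dT I e Γ θ a b m) x :=
  ((F.sD a (h b m)).sub (SA.sum _ fun k _ => (L.sm a b k x).mul (h k m))).sub
    (SA.sum _ fun k _ => (h b k).mul (L.sm a m k x))

theorem sm_sp (hρ : ∀ a, SA I (ρ a) x) (h : ∀ a b, SA I (θ a b) x) : SA I (sp ρ θ) x :=
  SA.smul contMDiffAt_const (SA.sum _ fun a _ => SA.sum _ fun b _ =>
    (h a b).smul ((hρ a).mul (hρ b)))

theorem AK.dx (h : AK I e P c θ) (F : Wz78.Frm I e P c) (L : LC I e P c Γ) (x : M) :
    Dx (fun a b => P a b x) (fun a b => θ a b x) fun a b m => dT I e Γ θ a b m x := by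
  classical
  have c1 := (h.cx x).skew
  have c2 := (h.cx x).proj
  have c3 := (h.cx x).proj' (F.pr x)
  have c4 := (h.cx x).sq
  have d1 : ∀ a b m, dv I (e a) (θ b m) x = -dv I (e a) (θ m b) x := fun a b m => by
    rw [← dv_neg]
    exact congrArg (dv I (e a) · x) (_root_.funext fun y => (h.cx y).skew b m)
  have d2 : ∀ a b m, ∑ k, (dv I (e a) (θ b k) x * P k m x + θ b k x * dv I (e a) (P k m) x) =
      dv I (e a) (θ b m) x := fun a b m => by
    rw [show θ b m = fun y => ∑ k, θ b k y * P k m y from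
      _root_.funext fun y => ((h.cx y).proj b m).symm,
      dv_sum' _ fun k => (h.sm b k x).mul (F.sP k m x)]
    exact sum_congr rfl fun k _ => (dv_mul (h.sm b k x) (F.sP k m x)).symm
  have d3' : ∀ a b m, ∑ k, (dv I (e a) (θ b k) x * θ k m x + θ b k x * dv I (e a) (θ k m) x) =
      -dv I (e a) (P b m) x := fun a b m => by
    rw [← dv_neg, show -P b m = fun y => ∑ k, θ b k y * θ k m y from
      _root_.funext fun y => ((h.cx y).sq b m).symm,
      dv_sum' _ fun k => (h.sm b k x).mul (h.sm k m x)]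
    exact sum_congr rfl fun k _ => (dv_mul (h.sm b k x) (h.sm k m x)).symm
  have key : ∀ a, let T := Matrix.of fun b m => dT I e Γ θ a b m x
      T * (Matrix.of fun a b => P a b x) = T ∧
      (Matrix.of fun a b => θ a b x) * T = -(T * (Matrix.of fun a b => θ a b x)) := fun a => by
    set Pm := Matrix.of fun a b => P a b x
    set Ω := Matrix.of fun a b => θ a b x
    set G := Matrix.of fun b k => Γ a b k x
    set D := Matrix.of fun b k => dv I (e a) (θ b k) x
    have eT : (Matrix.of fun b m => dT I e Γ θ a b m x) = D - G * Ω - Ω * G.transpose := by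
      ext b m
      simp [dT, Matrix.mul_apply, D, G, Ω]
    have m1 : Ω * Pm = Ω := by ext b m; simp [Matrix.mul_apply, Ω, Pm, c2]
    have m2 : Pm * Ω = Ω := by ext b m; simp [Matrix.mul_apply, Ω, Pm, c3]
    have m3 : Ω * Ω = -Pm := by ext b m; simp [Matrix.mul_apply, Ω, Pm, c4]
    have m4 : G * Pm = G := by ext b m; simp [Matrix.mul_apply, G, Pm, L.proj]
    have m5 : Pm * G.transpose = G.transpose := by
      ext b m
      simp [Matrix.mul_apply, G, Pm, (F.pr x).symm b, mul_comm (P _ _ x), L.proj]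
    have m6 : D * Pm + Ω * (G + G.transpose) = D := by
      ext b m
      simp [Matrix.mul_apply, G, Pm, D, Ω, ← d2 a b m, L.met, sum_add_distrib]
    have m7 : D * Ω + Ω * D = -(G + G.transpose) := by
      ext b m
      simp [Matrix.mul_apply, G, D, Ω, ← sum_add_distrib, d3', L.met]
    have m8 : Pm * (G + G.transpose) * Pm = 0 := by
      ext b m
      have := F.PdPP a b m x
      rw [sum_comm] at this
      simp [Matrix.mul_apply, G, Pm, sum_mul, ← L.met, this]
    have m9 : Ω * (G + G.transpose) * Pm = 0 := by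
      rw [← m1, Matrix.mul_assoc Ω, Matrix.mul_assoc Ω, m8, Matrix.mul_zero]
    have m10 : Ω * (G + G.transpose) * Ω = 0 := by
      rw [← m2, ← Matrix.mul_assoc, m2, m9, Matrix.zero_mul]
    intro T
    rw [show T = _ from eT]
    constructor
    · have : (D - G * Ω - Ω * G.transpose) * Pm = D * Pm - G * (Ω * Pm) + Ω * (G * Pm) -
          Ω * (G + G.transpose) * Pm := by noncomm_ring
      rw [this, m1, m4, m9, eq_sub_of_add_eq m6]
      noncomm_ring
    · have : Ω * (D - G * Ω - Ω * G.transpose) + (D - G * Ω - Ω * G.transpose) * Ω =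
          D * Ω + Ω * D - Ω * (G + G.transpose) * Ω - Ω * Ω * G.transpose - G * (Ω * Ω) := by
        noncomm_ring
      rw [eq_neg_iff_add_eq_zero, this, m7, m10, m3, Matrix.neg_mul, Matrix.mul_neg, m4, m5]
      abel
  refine ⟨fun a b m => ?_, fun a b m => congrFun (congrFun (key a).1 b) m,
    fun a b m => congrFun (congrFun (key a).2 b) m, fun a b m => ?_⟩
  · simp only [dT, d1 a b m, c1 _ m, c1 b, mul_neg, neg_mul, sum_neg_distrib, mul_comm (θ _ _ x)]
    ring
  · have t := fun a b m => L.cD (x := x) a b (T := fun k => θ k m x) fun k => c3 k m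
    have := h.cl a b m x
    simp only [d3, ← smul_eq_mul, t] at this
    have s : ∀ a b m, ∑ k, θ b k x * Γ a m k x = -∑ k, Γ a m k x * θ k b x := fun a b m => by
      simp only [c1 b, neg_mul, sum_neg_distrib, mul_comm (θ _ _ x)]
    simp only [dT, s]
    simp only [smul_eq_mul] at this
    linarith

/-- the spin lift commutes with covariant differentiation -/
theorem nabE_sp (C : CC I e P Γ p ρ A) (F : Wz78.Frm I e P c) (L : LC I e P c Γ)
    (hs : ∀ a b, SA I (θ a b) x) (h1 : ∀ a b, ∑ k, θ a k x * P k b x = θ a b x)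
    (h2 : ∀ a b, ∑ k, P a k x * θ k b x = θ a b x) (a : ι) :
    nabE I e A a (sp ρ θ) x = sp ρ (dT I e Γ θ a) x := by
  have hρ := fun a => C.sρ a x
  have e1 : ∀ b, nabE I e A a (ρ b) x = ∑ k, Γ a b k x • ρ k x := fun b => C.comp a b x
  have pr := (C.cl x).proj
  have z1 := F.dP_zero a x (T := fun b k => ρ b x * ∑ l, θ k l x • ρ l x)
    (fun b k => by simp only [← smul_mul_assoc, ← sum_mul, pr])
    fun b k => by
      simp only [← mul_smul_comm, ← mul_sum, smul_sum, smul_smul]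
      rw [sum_comm]
      simp only [← sum_smul, h2]
  have z2 := F.dP_zero a x (T := fun b k => (∑ l, θ l b x • ρ l x) * ρ k x)
    (fun b k => by
      simp only [← smul_mul_assoc, ← sum_mul, smul_sum, smul_smul]
      rw [sum_comm]
      simp only [← sum_smul, (F.pr x).symm b, mul_comm (P _ _ x), h1])
    fun b k => by simp only [← mul_smul_comm, ← mul_sum, pr]
  unfold sp spin
  rw [nabE_smul a contMDiffAt_const (SA.sum _ fun a _ => SA.sum _ fun b _ =>
    (hs a b).smul ((hρ a).mul (hρ b))), dv_const, Pi.zero_apply, zero_smul, zero_add,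
    nabE_sum a _ fun a => SA.sum _ fun b _ => (hs a b).smul ((hρ a).mul (hρ b))]
  congr 1
  simp only [fun m => nabE_sum (e := e) (A := A) a univ fun b => (hs m b).smul ((hρ m).mul (hρ b)),
    fun m b => nabE_smul (e := e) (A := A) a (hs m b) ((hρ m).mul (hρ b)),
    fun m b => nabE_mul (e := e) (A := A) a (hρ m) (hρ b), e1, dT, sub_smul, sum_sub_distrib,
    smul_add, sum_add_distrib]
  simp only [L.met, mul_sum, sum_mul, smul_sum, mul_smul_comm, smul_mul_assoc, smul_smul] at z1 z2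
  simp only [add_mul, add_smul, sum_add_distrib] at z1 z2
  simp only [mul_sum, sum_mul, smul_sum, mul_smul_comm, smul_mul_assoc, smul_smul, sum_smul]
  have r1 : ∑ b, ∑ l, ∑ k, (Γ a b k x * θ k l x) • (ρ b x * ρ l x) =
      ∑ b, ∑ k, ∑ l, (Γ a b k x * θ k l x) • (ρ b x * ρ l x) := sum_congr rfl fun _ _ => sum_comm
  have r2 : ∑ k, ∑ l, ∑ b, (θ k l x * Γ a k b x) • (ρ b x * ρ l x) =
      ∑ b, ∑ k, ∑ l, (Γ a k b x * θ k l x) • (ρ b x * ρ l x) := by
    rw [sum_congr rfl fun _ _ => sum_comm, sum_comm]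
    simp only [mul_comm (θ _ _ x)]
  have r3 : ∑ l, ∑ b, ∑ k, (θ l b x * Γ a b k x) • (ρ l x * ρ k x) =
      ∑ b, ∑ k, ∑ l, (Γ a b k x * θ l b x) • (ρ l x * ρ k x) := by
    rw [sum_comm, sum_congr rfl fun _ _ => sum_comm]
    simp only [mul_comm (θ _ _ x)]
  have r4 : ∑ l, ∑ k, ∑ b, (θ l b x * Γ a k b x) • (ρ l x * ρ k x) =
      ∑ b, ∑ k, ∑ l, (Γ a k b x * θ l b x) • (ρ l x * ρ k x) := by
    rw [sum_congr rfl fun _ _ => sum_comm, sum_comm, sum_congr rfl fun _ _ => sum_comm]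
    simp only [mul_comm (θ _ _ x)]
  rw [r1, r2, r3, r4, eq_neg_of_add_eq_zero_right z1, eq_neg_of_add_eq_zero_left z2]
  abel

/-- `∑ ρ_a ∇_a ρ(θ) = 0` for an almost Kaehler form -/
theorem AK.har (h : AK I e P c θ) (C : CC I e P Γ p ρ A) (F : Wz78.Frm I e P c) (L : LC I e P c Γ)
    (x : M) : ∑ a, ρ a x * nabE I e A a (sp ρ θ) x = 0 := by
  simp only [nabE_sp C F L (fun a b => h.sm a b x) (h.cx x).proj ((h.cx x).proj' (F.pr x))]
  exact (h.dx F L x).har (h.cx x) (F.pr x) (C.cl x)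

end Crest.Agent.X212.Taub88
end
end

-- ▼ part X212/Taub88/Unq
section

/-!
# Row 212, TAUB (helper88): uniqueness without a global unit spinor

`Q` is an orthogonal projector field, `N_a = ∇_a Q`.
-/

set_option autoImplicit false
set_option linter.unusedSectionVars false

open scoped Manifold ContDiff Topology InnerProductSpace
open Finset Filter MeasureTheory

noncomputable section
namespace Crest.Agent.X212.Taub88
open Wz78 Sob92 An

section pointwise
variable {E H : Type*} [NormedAddCommGroup E] [NormedSpace ℝ E] [TopologicalSpace H]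
  {I : ModelWithCorners ℝ E H} {M : Type*} [TopologicalSpace M] [ChartedSpace H M]
  {V : Type*} [NormedAddCommGroup V] [InnerProductSpace ℝ V]
  {ι : Type*} [Fintype ι] [IsManifold I 1 M]

variable (I) in
/-- the value of the Weitzenboeck term on `Q`-parallel harmonic spinors -/
def K0 (e : ι → (x : M) → TangentSpace I x) (g : ι → M → ℝ) (A : ι → M → V →L[ℝ] V)
    (Q : M → V →L[ℝ] V) : M → V →L[ℝ] V := fun x =>
  ∑ a, (nabE I e A a (nabE I e A a Q) x + g a x • nabE I e A a Q x +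
    nabE I e A a Q x * nabE I e A a Q x)

variable (I) in
/-- smooth orthogonal projector fields -/
structure OP (Q : M → V →L[ℝ] V) : Prop where
  sm : ∀ x, SA I Q x
  idem : ∀ x v, Q x (Q x v) = Q x v
  symm : ∀ x v w, ⟪Q x v, w⟫_ℝ = ⟪v, Q x w⟫_ℝ

variable {e : ι → (x : M) → TangentSpace I x} {P : ι → ι → M → ℝ} {g : ι → M → ℝ}
  {c Γ : ι → ι → ι → M → ℝ} {A ρ : ι → M → V →L[ℝ] V} {p Q : M → V →L[ℝ] V} {u : M → V} {x : M}

theorem OP.nab (h : OP I Q) (hu : ∀ y, SA I u y) (hq : ∀ y, Q y (u y) = u y) (a : ι) (x : M) :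
    nab I e A a u x = nabE I e A a Q x (u x) + Q x (nab I e A a u x) := by
  rw [← nab_app' a (h.sm x) (hu x)]
  simp only [hq]

theorem OP.N_symm (h : OP I Q) (a : ι) (hA : Skew (A a x)) (v w : V) :
    ⟪nabE I e A a Q x v, w⟫_ℝ = ⟪v, nabE I e A a Q x w⟫_ℝ := by
  have c : ∀ v : V, SA I (fun _ : M => v) x := fun _ => contMDiffAt_const
  have h1 := dv_inner (e := e) a hA ((h.sm x).app (c v)) (c w)
  have h2 := dv_inner (e := e) a hA (c v) ((h.sm x).app (c w))
  simp only [h.symm _ v w] at h1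
  rw [h1, nab_app' a (h.sm x) (c v), nab_app' a (h.sm x) (c w), inner_add_left, inner_add_right,
    h.symm x, h.symm x v] at h2
  linarith

theorem OP.lap (h : OP I Q) (F : Wz78.Frm I e P c) (hA : ∀ a y, SA I (A a) y)
    (hu : ∀ y, SA I u y) (hq : ∀ y, Q y (u y) = u y) (x : M) :
    lap I e g A u x = -K0 I e g A Q x (u x) - ∑ a, nabE I e A a Q x (Q x (Wz78.nab I e A a u x))
      - ∑ a, (Wz78.nab I e A a (fun y => Q y (Wz78.nab I e A a u y)) x +
        g a x • Q x (Wz78.nab I e A a u x)) := by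
  have sN := fun a => F.sNE (fun a => hA a x) a (h.sm x)
  have h1 : ∀ a, Wz78.nab I e A a (Wz78.nab I e A a u) x =
      nabE I e A a (nabE I e A a Q) x (u x) + nabE I e A a Q x (nabE I e A a Q x (u x)) +
      nabE I e A a Q x (Q x (Wz78.nab I e A a u x)) +
      Wz78.nab I e A a (fun y => Q y (Wz78.nab I e A a u y)) x := fun a => by
    rw [add_assoc (nabE I e A a (nabE I e A a Q) x (u x)), ← map_add, ← h.nab hu hq, ← nab_app' a (sN a) (hu x),
      ← nab_add a ((sN a).app (hu x)) ((h.sm x).app (F.sN (fun a => hA a x) a (hu x)))]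
    exact congrArg (Wz78.nab I e A a · x) (_root_.funext (h.nab hu hq a))
  have h2 : ∀ a, g a x • Wz78.nab I e A a u x = g a x • nabE I e A a Q x (u x) +
      g a x • Q x (Wz78.nab I e A a u x) := fun a => by rw [← smul_add, ← h.nab hu hq]
  simp only [Wz78.lap, h1, K0, _root_.sum_apply, add_apply, smul_apply, mul_apply_eq_comp,
    sum_add_distrib]
  rw [sum_congr rfl fun a _ => h2 a, sum_add_distrib]
  abel

/-- a `Q`-parallel harmonic section is an eigenvector -/
theorem OP.wK_eq (h : OP I Q) (C : CC I e P Γ p ρ A) (L : LC I e P c Γ) (F : Wz78.Frm I e P c)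
    (hg : ∀ k, g k x = ∑ a, Γ a k a x) (hu : ∀ y, SA I u y) (hq : ∀ y, Q y (u y) = u y)
    (hp : ∀ y, p y (u y) = u y) (hn : ∀ a y, Q y (Wz78.nab I e A a u y) = 0)
    (hD : ∀ y, dir I e ρ A u y = 0) : wK I e c ρ A x (u x) = K0 I e g A Q x (u x) := by
  have h1 := C.weitz L F hg (hu x) (Eventually.of_forall hp)
  rw [show dir I e ρ A u = fun _ => 0 from _root_.funext hD, h.lap F C.sm hu hq] at h1
  simp only [hn] at h1
  simp only [dir, Wz78.nab, dv_const, Pi.zero_apply, map_zero, add_zero, smul_zero,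
    sum_const_zero, sub_zero] at h1
  exact (neg_add_eq_zero.1 h1.symm).symm

end pointwise

variable {E : Type} [NormedAddCommGroup E] [NormedSpace ℝ E] [FiniteDimensional ℝ E]
  [MeasurableSpace E] [BorelSpace E]
  {HM : Type} [TopologicalSpace HM] {I : ModelWithCorners ℝ E HM}
  {M : Type} [TopologicalSpace M] [ChartedSpace HM M] [IsManifold I ∞ M]
  [MeasurableSpace M] {ι : Type} [Fintype ι]
  {V : Type} [NormedAddCommGroup V] [InnerProductSpace ℝ V]
  [T2Space M] [BorelSpace M] [CompactSpace M]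
  {F : Fr I M ι} {Γ : ι → ι → ι → M → ℝ} {A ρ : ι → M → V →L[ℝ] V} {p Q : M → V →L[ℝ] V}
  {u w Φ : M → V}

theorem sm_K0 (hA : ∀ a, Sm I (A a)) (h : OP I Q) : Sm I (K0 I F.e F.dv A Q) := fun x =>
  have sN := fun a => (frm F).sNE (fun a => hA a x) a (h.sm x)
  SA.sum _ fun a _ => (((frm F).sNE (fun a => hA a x) a (sN a)).add
    (SA.smul (F.dv_sm a x) (sN a))).add ((sN a).mul (sN a))

/-- **the master identity** -/
theorem OP.master (h : OP I Q) (C : CC I F.e F.P Γ p ρ A) (L : LC I F.e F.P F.c Γ) (hR : Riem F)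
    (hA : ∀ a x, Skew (A a x)) (hρ : ∀ a x, Skew (ρ a x)) (hu : Sm I u) (hw : Sm I w)
    (hq : ∀ y, Q y (u y) = u y) (hp : ∀ y, p y (u y) = u y) :
    ∫ x, ⟪dir I F.e ρ A u x, dir I F.e ρ A w x⟫_ℝ ∂F.μ =
      ∫ x, (∑ a, (⟪Q x (Wz78.nab I F.e A a u x), Wz78.nab I F.e A a w x⟫_ℝ -
        ⟪nabE I F.e A a Q x (Q x (Wz78.nab I F.e A a u x)), w x⟫_ℝ) +
        ⟪(wK I F.e F.c ρ A x - K0 I F.e F.dv A Q x) (u x), w x⟫_ℝ) ∂F.μ := by
  have cs := fun f : M → ℝ => HasCompactSupport.of_compactSpace f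
  have sn : ∀ a, Sm I fun y => Q y (Wz78.nab I F.e A a u y) :=
    fun a x => (h.sm x).app (sm_nab C.sm a hu x)
  have s1 : ∀ a, Sm I fun y => ⟪Q y (Wz78.nab I F.e A a u y), w y⟫_ℝ :=
    fun a x => SA.inner (sn a x) (hw x)
  rw [← integral_dir C L hR hA hρ (fun x => C.dir_sm (frm F) (hu x)) hw
    (HasCompactSupport.of_compactSpace w), ← add_zero (∫ x, _ ∂F.μ),
    ← integral_dvg s1 fun a => cs _, ← integral_add (integ (fun x => SA.inner
      (C.dir_sm (frm F) (C.dir_sm (frm F) (hu x))) (hw x)) (cs _)) (integ_dvg s1 fun a => cs _)]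
  refine integral_congr_ae (Eventually.of_forall fun x => ?_)
  simp only [C.weitz L (frm F) (hR.hg L x) (hu x) (Eventually.of_forall hp),
    h.lap (frm F) C.sm hu hq, dvg, fun a => dv_inner (e := F.e) a (hA a x) (sn a x) (hw x),
    inner_add_left, inner_sub_left, inner_neg_left, sum_inner, real_inner_smul_left, sub_apply,
    sum_add_distrib, sum_sub_distrib]
  ring

theorem OP.pyth (h : OP I Q) (y : M) (v : V) : ‖v‖ ^ 2 = ‖Q y v‖ ^ 2 + ‖v - Q y v‖ ^ 2 := by
  conv_lhs => rw [← add_sub_cancel (Q y v) v]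
  rw [norm_add_sq_real, h.symm, map_sub, h.idem, sub_self, inner_zero_right]; ring

/-- **the basic estimate** -/
theorem OP.core [F.μ.IsOpenPosMeasure] (h : OP I Q) (C : CC I F.e F.P Γ p ρ A)
    (L : LC I F.e F.P F.c Γ) (hR : Riem F) (hA : ∀ a x, Skew (A a x)) (hρ : ∀ a x, Skew (ρ a x))
    (hΦ : Sm I Φ) (hp : ∀ y v, p y (Q y v) = Q y v) (hD : ∀ x, dir I F.e ρ A Φ x = 0)
    {c c' r B : ℝ} (hc : 0 < c) (hc' : 2 * B < c')
    (hB : ∀ x, ∑ a, ‖nabE I F.e A a Q x (Φ x - Q x (Φ x))‖ ^ 2 ≤ B * ‖Φ x - Q x (Φ x)‖ ^ 2)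
    (hT : ∫ x, (c * (‖Q x (Φ x)‖ ^ 2 - r) ^ 2 + c' * ‖Φ x - Q x (Φ x)‖ ^ 2) ∂F.μ ≤
      ∫ x, ⟪(wK I F.e F.c ρ A x - K0 I F.e F.dv A Q x) (Q x (Φ x)), Φ x⟫_ℝ ∂F.μ) (x : M) :
    Q x (Φ x) = Φ x ∧ ‖Φ x‖ ^ 2 = r ∧ ∀ a, Q x (Wz78.nab I F.e A a Φ x) = 0 := by
  have cs := fun f : M → ℝ => HasCompactSupport.of_compactSpace f
  set α := fun y => Q y (Φ y) with hα
  set β := fun y => Φ y - Q y (Φ y) with hβ
  have sα : Sm I α := fun x => (h.sm x).app (hΦ x)
  have sβ : Sm I β := hΦ.sub sα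
  have qα : ∀ y, Q y (α y) = α y := fun y => h.idem y _
  have qβ : ∀ y, Q y (β y) = 0 := fun y => by simp [hβ, h.idem]
  have e0 : Φ = fun y => α y + β y := _root_.funext fun y => (add_sub_cancel _ _).symm
  set n := fun a y => Q y (Wz78.nab I F.e A a α y) with hn
  have sn : ∀ a, Sm I (n a) := fun a x => (h.sm x).app (sm_nab C.sm a sα x)
  have sN : ∀ a, Sm I (nabE I F.e A a Q) := fun a x => (frm F).sNE (fun a => C.sm a x) a (h.sm x)
  have e1 : ∀ a y, Q y (Wz78.nab I F.e A a β y) = -nabE I F.e A a Q y (β y) := fun a y => by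
    have := nab_app' (e := F.e) (A := A) a (h.sm y) (sβ y)
    simp only [qβ, Wz78.nab, dv_const, Pi.zero_apply, map_zero, add_zero] at this
    exact eq_neg_of_add_eq_zero_right this.symm
  have e2 : ∀ a y, Q y (Wz78.nab I F.e A a Φ y) = n a y - nabE I F.e A a Q y (β y) := fun a y => by
    rw [sub_eq_add_neg, ← e1, ← map_add, ← nab_add a (sα y) (sβ y), ← e0]
  have e4 : ∀ a y, ⟪n a y, Wz78.nab I F.e A a Φ y⟫_ℝ - ⟪nabE I F.e A a Q y (n a y), Φ y⟫_ℝ =
      ‖n a y‖ ^ 2 - 2 * ⟪n a y, nabE I F.e A a Q y (β y)⟫_ℝ := fun a y => by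
    have k1 : ⟪n a y, nabE I F.e A a Q y (α y)⟫_ℝ = 0 := by
      have := congrArg (Q y) (h.nab (e := F.e) (A := A) sα qα a y)
      rw [map_add, h.idem, right_eq_add] at this
      rw [hn, h.symm, this, inner_zero_right]
    have k2 : ⟪n a y, Wz78.nab I F.e A a Φ y⟫_ℝ = ⟪n a y, Q y (Wz78.nab I F.e A a Φ y)⟫_ℝ := by
      rw [← h.symm, hn, h.idem]
    rw [k2, e2, h.N_symm a (hA a y), congrFun e0 y, map_add, inner_add_right, k1, inner_sub_right,
      real_inner_self_eq_norm_sq]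
    ring
  have m := h.master C L hR hA hρ sα hΦ qα fun y => hp y _
  simp only [hD, inner_zero_right, integral_zero] at m
  set f := fun y => ∑ a, (‖n a y‖ ^ 2 - 2 * ⟪n a y, nabE I F.e A a Q y (β y)⟫_ℝ) +
    (c * (‖α y‖ ^ 2 - r) ^ 2 + c' * ‖β y‖ ^ 2) with hf
  have cα := sα.continuous
  have cβ := sβ.continuous
  have c1 : Continuous fun y => ∑ a, (‖n a y‖ ^ 2 - 2 * ⟪n a y, nabE I F.e A a Q y (β y)⟫_ℝ) :=
    continuous_finsetSum univ fun a _ => ((sn a).continuous.norm.pow 2).sub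
      (continuous_const.mul ((sn a).continuous.inner ((sN a).continuous.clm_apply cβ)))
  have c2 : Continuous fun y => c * (‖α y‖ ^ 2 - r) ^ 2 + c' * ‖β y‖ ^ 2 := by fun_prop
  have c3 := (((sm_wK (F := F) C.sm C.sρ).sub (sm_K0 (F := F) C.sm h)).continuous.clm_apply
    cα).inner (𝕜 := ℝ) hΦ.continuous
  have cf : Continuous f := c1.add c2
  have i1 := cf.integrable_of_hasCompactSupport (μ := F.μ) (cs _)
  have m' : ∫ y, f y ∂F.μ ≤ 0 := by
    have j1 := c1.integrable_of_hasCompactSupport (μ := F.μ) (cs _)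
    rw [hf, integral_add j1 (c2.integrable_of_hasCompactSupport (cs _)), m]
    refine (add_le_add_right hT _).trans_eq ?_
    rw [← integral_add j1 (c3.integrable_of_hasCompactSupport (cs _))]
    exact integral_congr_ae (Eventually.of_forall fun y => by simp only [← e4]; rfl)
  have b1 : ∀ y, (∑ a, ‖n a y‖ ^ 2) / 2 + c * (‖α y‖ ^ 2 - r) ^ 2 +
      (c' - 2 * B) * ‖β y‖ ^ 2 ≤ f y := fun y => by
    have k1 : ∑ a, (‖n a y‖ ^ 2 / 2 - 2 * ‖nabE I F.e A a Q y (β y)‖ ^ 2) ≤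
        ∑ a, (‖n a y‖ ^ 2 - 2 * ⟪n a y, nabE I F.e A a Q y (β y)⟫_ℝ) := sum_le_sum fun a _ => by
      have := real_inner_le_norm (n a y) (nabE I F.e A a Q y (β y))
      nlinarith [sq_nonneg (‖n a y‖ - 2 * ‖nabE I F.e A a Q y (β y)‖)]
    rw [sum_sub_distrib, ← sum_div, ← mul_sum] at k1
    have k2 := hB y
    simp only [hf]
    linarith
  have p1 := fun y => sum_nonneg fun a (_ : a ∈ univ) => sq_nonneg ‖n a y‖
  have p2 : ∀ y, 0 ≤ c * (‖α y‖ ^ 2 - r) ^ 2 := fun y => by positivity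
  have hr' : 0 < c' - 2 * B := by linarith
  have p3 : ∀ y, 0 ≤ (c' - 2 * B) * ‖β y‖ ^ 2 := fun y => by positivity
  have f0 : ∀ y, 0 ≤ f y := fun y => by linarith [b1 y, p1 y, p2 y, p3 y]
  have z : f x = 0 := congrFun ((cf.ae_eq_iff_eq F.μ continuous_zero).1
    ((integral_eq_zero_iff_of_nonneg f0 i1).1 (le_antisymm m' (integral_nonneg f0)))) x
  have z1 : β x = 0 := by
    have : (c' - 2 * B) * ‖β x‖ ^ 2 = 0 := by linarith [b1 x, p1 x, p2 x, p3 x]
    simpa [hr'.ne'] using this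
  have z2 : ‖α x‖ ^ 2 - r = 0 := by
    have : c * (‖α x‖ ^ 2 - r) ^ 2 = 0 := by linarith [b1 x, p1 x, p2 x, p3 x]
    simpa [hc.ne'] using this
  have z3 : ∑ a, ‖n a x‖ ^ 2 = 0 := by linarith [b1 x, p1 x, p2 x, p3 x]
  have z4 : Q x (Φ x) = Φ x := (sub_eq_zero.1 z1).symm
  refine ⟨z4, by rw [← z4]; linarith, fun a => ?_⟩
  rw [e2, z1, map_zero, sub_zero]
  simpa using (sum_eq_zero_iff_of_nonneg fun a _ => sq_nonneg ‖n a x‖).1 z3 a (mem_univ a)

/-- **uniqueness**; `δ` bounds an error term -/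
theorem OP.uniq [F.μ.IsOpenPosMeasure] (h : OP I Q) (C : CC I F.e F.P Γ p ρ A)
    (L : LC I F.e F.P F.c Γ) (hR : Riem F) (hA : ∀ a x, Skew (A a x)) (hρ : ∀ a x, Skew (ρ a x))
    (hΦ : Sm I Φ) (hp : ∀ y v, p y (Q y v) = Q y v) (hD : ∀ x, dir I F.e ρ A Φ x = 0)
    {c r B δ : ℝ} (hc : 2 * δ < c) (hδ : 0 ≤ δ) (hr : 4 * B + 2 * δ < c * r) {ε : M → ℝ}
    (hε : Continuous ε)
    (hB : ∀ x, ∑ a, ‖nabE I F.e A a Q x (Φ x - Q x (Φ x))‖ ^ 2 ≤ B * ‖Φ x - Q x (Φ x)‖ ^ 2)
    (hT : ∀ x, ⟪(wK I F.e F.c ρ A x - K0 I F.e F.dv A Q x) (Q x (Φ x)), Φ x⟫_ℝ =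
      c / 2 * (‖Q x (Φ x)‖ ^ 2 * (‖Φ x‖ ^ 2 - r)) + ε x)
    (hC : -δ * ∫ x, ((‖Q x (Φ x)‖ ^ 2 - r) ^ 2 + ‖Φ x - Q x (Φ x)‖ ^ 2) ∂F.μ ≤
      ∫ x, (c / 2 * r * (‖Q x (Φ x)‖ ^ 2 - ‖Φ x - Q x (Φ x)‖ ^ 2 - r) + ε x) ∂F.μ) (x : M) :
    Q x (Φ x) = Φ x ∧ ‖Φ x‖ ^ 2 = r ∧ ∀ a, Q x (Wz78.nab I F.e A a Φ x) = 0 := by
  have cs := fun f : M → ℝ => HasCompactSupport.of_compactSpace f
  have cΦ := hΦ.continuous
  have cQ : Continuous Q := (show Sm I Q from h.sm).continuous
  have i : ∀ {f : M → ℝ}, Continuous f → Integrable f F.μ :=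
    fun hf => hf.integrable_of_hasCompactSupport (cs _)
  refine h.core C L hR hA hρ hΦ hp hD (c := c / 2 - δ) (c' := c / 2 * r - δ) (by linarith)
    (by linarith) hB ?_ x
  rw [← integral_const_mul, ← sub_nonneg, ← integral_sub (i (by fun_prop)) (i (by fun_prop))] at hC
  simp only [hT]
  rw [← sub_nonneg, ← integral_sub (i (by fun_prop)) (i (by fun_prop))]
  refine hC.trans (integral_mono (i (by fun_prop)) (i (by fun_prop)) fun y => ?_)
  have : 0 ≤ c * (‖Q y (Φ y)‖ ^ 2 * ‖Φ y - Q y (Φ y)‖ ^ 2) :=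
    mul_nonneg (by linarith) (by positivity)
  simp only [h.pyth y (Φ y)]
  linarith

end Crest.Agent.X212.Taub88
end
end

-- ▼ part X212/Taub88/Key

/-!
# Row 212, TAUB (helper88): the Weitzenboeck term on pure spinors
-/

set_option autoImplicit false
set_option linter.unusedSectionVars false

open scoped Manifold ContDiff Topology InnerProductSpace
open Finset Filter

noncomputable section
namespace Crest.Agent.X212.Taub88
open Wz78 Sob92

variable {E H : Type*} [NormedAddCommGroup E] [NormedSpace ℝ E] [TopologicalSpace H]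
  {I : ModelWithCorners ℝ E H} {M : Type*} [TopologicalSpace M] [ChartedSpace H M]
  {V : Type*} [NormedAddCommGroup V] [InnerProductSpace ℝ V] [FiniteDimensional ℝ V]
  {ι : Type*} [Fintype ι] [IsManifold I 1 M]

section defs
variable (I) (e : ι → (x : M) → TangentSpace I x)

/-- complex Clifford modules with connection over an almost Kaehler four-manifold -/
structure TM (P : ι → ι → M → ℝ) (c Γ : ι → ι → ι → M → ℝ) (o : ι → ι → ι → ι → M → ℝ)
    (θ : ι → ι → M → ℝ) (p : M → V →L[ℝ] V) (J : V →L[ℝ] V) (ρ A : ι → M → V →L[ℝ] V) :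
    Prop where
  F : Wz78.Frm I e P c
  L : LC I e P c Γ
  S : Sep I e P
  so : ∀ a b c d x, SA I (o a b c d) x
  ak : AK I e P c θ
  sd : ∀ x, SD (fun a b c d => o a b c d x) fun a b => θ a b x
  C : CC I e P Γ p ρ A
  pc : ∀ x, PC (fun a b => P a b x) (fun a b c d => o a b c d x) (p x) J fun a => ρ a x
  JA : ∀ a x, J * A a x = A a x * J
  sk : ∀ a x, Skew (A a x)

/-- the universal part of the curvature of the line of pure spinors -/
def un (c Γ : ι → ι → ι → M → ℝ) (θ : ι → ι → M → ℝ) (a b : ι) : M → ℝ := fun x =>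
  (dot (fun m l => Rm I e c Γ a b m l x) (fun m l => θ m l x) -
    dot (lie (fun m l => dT I e Γ θ a m l x) fun m l => dT I e Γ θ b m l x)
      (fun m l => θ m l x) / 4) / 4

/-- the bound of the derivative of the projector -/
def bnd (Γ : ι → ι → ι → M → ℝ) (θ : ι → ι → M → ℝ) : M → ℝ := fun x =>
  ∑ a, ((∑ m, ∑ l, |dT I e Γ θ a m l x|) / 8) ^ 2

end defs

/-- the projector field onto positive spinors -/
def ppf (o : ι → ι → ι → ι → M → ℝ) (p : M → V →L[ℝ] V) (ρ : ι → M → V →L[ℝ] V) :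
    M → V →L[ℝ] V := fun x => pp (fun a b c d => o a b c d x) (p x) fun a => ρ a x

/-- the projector field onto pure spinors -/
def Qf (o : ι → ι → ι → ι → M → ℝ) (p : M → V →L[ℝ] V) (J : V →L[ℝ] V) (ρ : ι → M → V →L[ℝ] V)
    (θ : ι → ι → M → ℝ) : M → V →L[ℝ] V :=
  fun x => Qt (fun a b c d => o a b c d x) (p x) J (fun a => ρ a x) fun a b => θ a b x

variable {e : ι → (x : M) → TangentSpace I x} {P θ : ι → ι → M → ℝ} {g : ι → M → ℝ}
  {c Γ : ι → ι → ι → M → ℝ} {o : ι → ι → ι → ι → M → ℝ} {A ρ : ι → M → V →L[ℝ] V}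
  {p : M → V →L[ℝ] V} {J : V →L[ℝ] V} {u : M → V} {x : M}

theorem con_ad (h : Con I P A) : Con I P fun a y => ad V (A a y) :=
  ⟨fun a x => SA.clm _ (h.sm a x), fun a x => by simp only [← map_smul, ← map_sum, h.proj]⟩

/-- endomorphisms as a Clifford module -/
theorem cc_end (C : CC I e P Γ p ρ A) :
    CC I e P Γ (fun y => ContinuousLinearMap.mul ℝ _ (p y))
      (fun a y => ContinuousLinearMap.mul ℝ _ (ρ a y)) fun a y => ad V (A a y) := by
  have m : ∀ S T : V →L[ℝ] V, ContinuousLinearMap.mul ℝ _ S * ContinuousLinearMap.mul ℝ _ T =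
      ContinuousLinearMap.mul ℝ _ (S * T) := fun S T => by ext1 X; simp [mul_assoc]
  have n : ∀ S T : V →L[ℝ] V, ad V S * ContinuousLinearMap.mul ℝ _ T -
      ContinuousLinearMap.mul ℝ _ T * ad V S = ContinuousLinearMap.mul ℝ _ (S * T - T * S) :=
    fun S T => by
      ext1 X
      simp only [sub_apply, mul_apply_eq_comp, ad_apply, ContinuousLinearMap.mul_apply']
      noncomm_ring
  refine ⟨con_ad C.toCon, fun x => SA.clm _ (C.sp x), fun a x => SA.clm _ (C.sρ a x),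
    fun x => ⟨fun a b => ?_, fun a => ?_, fun a => ?_, fun a => ?_⟩, fun a x => ?_,
    fun a b x => ?_⟩
  · rw [m, m, ← map_add, (C.cl x).rel, map_smul]
  · rw [m, (C.cl x).pl]
  · rw [m, (C.cl x).pr]
  · simp only [← map_smul, ← map_sum, (C.cl x).proj]
  · rw [dv_clm _ (C.sp x).md, n, ← map_add, C.par, map_zero]
  · simp only [dv_clm _ (C.sρ b x).md, n, ← map_add, C.comp, map_sum, map_smul]

theorem sm_dot {X Y : ι → ι → M → ℝ} (hX : ∀ a b, SA I (X a b) x) (hY : ∀ a b, SA I (Y a b) x) :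
    SA I (fun y => dot (fun a b => X a b y) fun a b => Y a b y) x :=
  SA.sum _ fun a _ => SA.sum _ fun b _ => (hX a b).mul (hY a b)

theorem sm_un (F : Wz78.Frm I e P c) (L : LC I e P c Γ) (h : ∀ a b, SA I (θ a b) x) (a b : ι) :
    SA I (un I e c Γ θ a b) x :=
  ((sm_dot (fun m l => L.sRm F a b m l x) h).sub ((sm_dot (fun m l => SA.sum _ fun k _ =>
    ((sm_dT F L h b m k).mul (sm_dT F L h a k l)).sub ((sm_dT F L h a m k).mul (sm_dT F L h b k l)))
    h).div_const 4)).div_const 4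

theorem cont_bnd (F : Wz78.Frm I e P c) (L : LC I e P c Γ) (h : ∀ a b x, SA I (θ a b) x) :
    Continuous (bnd I e Γ θ) := by
  have : ∀ a m l, Continuous (dT I e Γ θ a m l) := fun a m l =>
    continuous_iff_continuousAt.2 fun x => (sm_dT F L (fun a b => h a b x) a m l).continuousAt
  unfold bnd
  fun_prop

theorem un_skew (F : Wz78.Frm I e P c) (L : LC I e P c Γ) (S : Sep I e P) (a b : ι) (x : M) :
    un I e c Γ θ a b x = -un I e c Γ θ b a x := by
  simp only [un, dot, lie, L.Rm_s12 F S a b, sum_sub_distrib, sub_mul, neg_mul, sum_neg_distrib]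
  ring

namespace TM
variable (h : TM I e P c Γ o θ p J ρ A)
include h

theorem cx (x : M) : Cx (fun a b => P a b x) fun a b => θ a b x := h.ak.cx x

theorem sm_om (x : M) : SA I (fun y => omA (fun a b c d => o a b c d y) fun a => ρ a y) x :=
  SA.smul contMDiffAt_const (SA.sum _ fun a _ => SA.sum _ fun b _ => SA.sum _ fun c _ =>
    SA.sum _ fun d _ => SA.smul (h.so a b c d x)
      (SA.mul (SA.mul (SA.mul (h.C.sρ a x) (h.C.sρ b x)) (h.C.sρ c x)) (h.C.sρ d x)))

theorem par_om (a : ι) (x : M) :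
    nabE I e A a (fun y => omA (fun a b c d => o a b c d y) fun a => ρ a y) x = 0 := by
  set w := fun y => omA (fun a b c d => o a b c d y) fun a => ρ a y with hw
  set N := nabE I e A a w x
  have z : nabE I e A a (fun _ => 0) x = 0 := by simp [nabE]
  have hp : nabE I e A a p x = 0 := h.C.par a x
  have e1 : ∀ b, N * ρ b x = -(ρ b x * N) := fun b => by
    have k := nabE_add (e := e) (A := A) a ((h.sm_om x).mul (h.C.sρ b x))
      ((h.C.sρ b x).mul (h.sm_om x))
    have k1 : nabE I e A a (ρ b) x = ∑ k, Γ a b k x • ρ k x := h.C.comp a b x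
    rw [nabE_mul a (h.sm_om x) (h.C.sρ b x), nabE_mul a (h.C.sρ b x) (h.sm_om x), k1] at k
    simp only [(h.pc _).om_ρ, neg_add_cancel, z, mul_sum, sum_mul, mul_smul_comm, smul_mul_assoc,
      smul_neg, sum_neg_distrib] at k
    rw [eq_neg_iff_add_eq_zero, k]
    abel
  have e2 : N * w x + w x * N = 0 := by
    rw [← nabE_mul a (h.sm_om x) (h.sm_om x), ← hp]
    simp only [(h.pc _).om_om]
  have e3 : N * p x = N := by
    have k := nabE_mul (e := e) (A := A) a (h.sm_om x) (h.C.sp x)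
    simp only [(h.pc _).om_p, hp, mul_zero, add_zero] at k
    exact k.symm
  have e4 : N * w x = w x * N := by
    have k : ∀ b T, N * (ρ b x * T) = -(ρ b x * (N * T)) := fun b T => by
      rw [← mul_assoc, e1, neg_mul, mul_assoc]
    simp only [hw, omA, mul_smul_comm, smul_mul_assoc, mul_sum, sum_mul, mul_assoc, k, e1, mul_neg,
      neg_neg]
  rw [← e4, ← two_smul ℝ, smul_eq_zero_iff_right two_ne_zero] at e2
  rw [← e3, ← (h.pc x).om_om, ← mul_assoc, e2, zero_mul]

theorem sm_pp (x : M) : SA I (ppf o p ρ) x :=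
  SA.smul contMDiffAt_const ((h.C.sp x).sub (h.sm_om x))

theorem par_pp (a : ι) (x : M) : nabE I e A a (ppf o p ρ) x = 0 := by
  have hp : nabE I e A a p x = 0 := h.C.par a x
  unfold ppf pp
  rw [nabE_smul a contMDiffAt_const ((h.C.sp x).sub (h.sm_om x)),
    nabE_sub a (h.C.sp x) (h.sm_om x), h.par_om, hp]
  simp

theorem par_J (a : ι) (x : M) : nabE I e A a (fun _ => J) x = 0 := by simp [nabE, h.JA]

theorem sm_S (x : M) : SA I (sp ρ θ) x := sm_sp (fun a => h.C.sρ a x) fun a b => h.ak.sm a b x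

theorem op : OP I (Qf o p J ρ θ) :=
  ⟨fun x => SA.smul contMDiffAt_const ((h.sm_pp x).sub ((h.sm_S x).mul contMDiffAt_const)),
    fun x v => congrArg (· v) ((h.pc x).Q_Q (h.cx x) (h.sd x)), fun x => (h.pc x).Q_s (h.cx x)⟩

theorem N_eq' (a : ι) (x : M) :
    nabE I e A a (Qf o p J ρ θ) x = (-1 / 2 : ℝ) • (nabE I e A a (sp ρ θ) x * J) := by
  have k := (h.sm_S x).mul (contMDiffAt_const (c := J))
  change nabE I e A a (fun y => (1 / 2 : ℝ) • (ppf o p ρ y - sp ρ θ y * J)) x = _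
  rw [nabE_smul a contMDiffAt_const ((h.sm_pp x).sub k), nabE_sub a (h.sm_pp x) k, h.par_pp,
    nabE_mul a (h.sm_S x) contMDiffAt_const, h.par_J]
  simp only [dv_const, Pi.zero_apply, mul_zero]
  module

theorem N_eq (a : ι) (x : M) :
    nabE I e A a (Qf o p J ρ θ) x = (-1 / 2 : ℝ) • (sp ρ (dT I e Γ θ a) x * J) := by
  rw [h.N_eq', nabE_sp h.C h.F h.L (fun a b => h.ak.sm a b x) (h.cx x).proj
    ((h.cx x).proj' (h.F.pr x))]

theorem har (x : M) : ∑ a, ρ a x * nabE I e A a (Qf o p J ρ θ) x = 0 := by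
  simp only [h.N_eq', mul_smul_comm, ← smul_sum, ← mul_assoc, ← sum_mul, h.ak.har h.C h.F h.L x,
    zero_mul, smul_zero]

theorem p_N (a : ι) (x : M) :
    p x * nabE I e A a (Qf o p J ρ θ) x = nabE I e A a (Qf o p J ρ θ) x := by
  rw [h.N_eq, mul_smul_comm, ← mul_assoc, sp, (h.C.cl x).p_spin]

theorem N_le (x : M) (v : V) :
    ∑ a, ‖nabE I e A a (Qf o p J ρ θ) x v‖ ^ 2 ≤ bnd I e Γ θ x * ‖v‖ ^ 2 := by
  rw [bnd, sum_mul]
  refine sum_le_sum fun a _ => ?_
  rw [← mul_pow, h.N_eq, sp, ← (h.pc x).J_spin, smul_apply, mul_apply_eq_comp, norm_smul,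
    (h.pc x).norm_J (by rw [← mul_apply_eq_comp, (h.C.cl x).p_spin])]
  refine pow_le_pow_left₀ (by positivity) ?_ 2
  have := (h.pc x).norm_spin (fun m l => dT I e Γ θ a m l x) v
  norm_num
  linarith

theorem tw_J (a b : ι) (x : M) : tw I e c Γ p ρ A a b x * J = J * tw I e c Γ p ρ A a b x := by
  have := h.F.curv_par (fun a => h.C.sm a x) (contMDiffAt_const (c := J))
    (fun a => Eventually.of_forall (h.par_J a)) a b
  rw [tw, sub_mul, mul_sub, (h.pc x).J_spin, mul_assoc, ← (h.pc x).Jp, ← mul_assoc, this, mul_assoc]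

theorem tw_p (a b : ι) (x : M) : tw I e c Γ p ρ A a b x * p x = p x * tw I e c Γ p ρ A a b x := by
  rw [tw, sub_mul, mul_sub, (h.C.cl x).p_spin, (h.C.cl x).spin_p, ← mul_assoc, ← h.C.curv_p h.F]

theorem tw_Q (a b : ι) (x : M) :
    tw I e c Γ p ρ A a b x * Qf o p J ρ θ x = Qf o p J ρ θ x * tw I e c Γ p ρ A a b x :=
  comm_Q (fun m => h.C.tw_comm h.L h.F a b m x) (h.tw_p a b x) (h.tw_J a b x)

theorem NQ (a : ι) (x : M) : nabE I e A a (Qf o p J ρ θ) x * Qf o p J ρ θ x +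
    Qf o p J ρ θ x * nabE I e A a (Qf o p J ρ θ) x = nabE I e A a (Qf o p J ρ θ) x := by
  rw [← nabE_mul a (h.op.sm x) (h.op.sm x)]
  exact congrArg (nabE I e A a · x) (_root_.funext fun y => (h.pc y).Q_Q (h.cx y) (h.sd y))

/-- the curvature of the bundle of pure spinors -/
theorem G_eq (a b : ι) (x : M) : let Q := Qf o p J ρ θ; let N := fun a => nabE I e A a Q x
    Q x * curv I e c A a b x * Q x + (N a * N b - N b * N a) * Q x =
      (tw I e c Γ p ρ A a b x + un I e c Γ θ a b x • J) * Q x := by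
  intro Q N
  have k := h.pc x
  have q : Q x * Q x = Q x := k.Q_Q (h.cx x) (h.sd x)
  have d := h.ak.dx h.F h.L x
  have e1 : curv I e c A a b x * Q x = (tw I e c Γ p ρ A a b x +
      spin (fun a => ρ a x) fun m l => Rm I e c Γ a b m l x) * Q x := by
    rw [tw, sub_add_cancel, mul_assoc]
    exact congrArg _ k.p_Q.symm
  have e2 : ∀ a b, N a * N b * Q x = Q x * (N a * N b) * Q x := fun a b => by
    have : N a * N b * Q x = Q x * (N a * N b) := by
      rw [mul_assoc, eq_sub_of_add_eq (h.NQ b x), mul_sub, ← mul_assoc,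
        eq_sub_of_add_eq (h.NQ a x), sub_mul, sub_sub_cancel, mul_assoc]
    rw [← this, mul_assoc _ (Q x), q]
  have e3 : ∀ a b, N a * N b = (-1 / 4 : ℝ) • (sp ρ (dT I e Γ θ a) x * sp ρ (dT I e Γ θ b) x) :=
    fun a b => by
      simp only [N, Q, h.N_eq, smul_mul_smul_comm, sp, ← k.J_spin]
      rw [mul_assoc, ← mul_assoc (spin _ _), ← k.J_spin, mul_assoc,
        k.JJ' (by rw [← mul_assoc, k.cl.p_spin])]
      module
  have e4 := k.Q_spin_Q (h.cx x) (h.sd x) fun m l => h.L.Rm_s34 h.F a b m l x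
  have s : ∀ a, Sk (fun a b => P a b x) fun m l => dT I e Γ θ a m l x :=
    fun a => ⟨d.skew a, d.proj a⟩
  have e5 := k.Q_spin_Q (h.cx x) (h.sd x) ((s a).lie (s b)).skew
  rw [← spin_lie k.cl (s a)] at e5
  rw [mul_assoc, e1, sub_mul, e2 a, e2 b, ← sub_mul, ← mul_sub, e3, e3, ← smul_sub, add_mul,
    mul_add, ← mul_assoc, ← h.tw_Q, mul_assoc, q, ← mul_assoc, mul_smul_comm, smul_mul_assoc]
  erw [e4, e5]
  rw [add_mul, smul_mul_assoc, un]
  change _ + _ • (J * Q x) + _ • _ • (J * Q x) = _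
  module

theorem key' (hg : ∀ k, g k x = ∑ a, Γ a k a x) : let Q := Qf o p J ρ θ
    (wK I e c ρ A x - K0 I e g A Q x) * Q x = (1 / 2 : ℝ) • ∑ a, ∑ b, ρ a x * ρ b x *
      ((tw I e c Γ p ρ A a b x + un I e c Γ θ a b x • J) * Q x) := by
  intro Q
  have e1 := (cc_end h.C).weitz h.L h.F hg (h.op.sm x)
    (Eventually.of_forall fun y => (h.pc y).p_Q)
  have e2 : dir I e (fun a y => ContinuousLinearMap.mul ℝ _ (ρ a y)) (fun a y => ad V (A a y)) Q =
      fun _ => 0 := _root_.funext h.har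
  rw [e2] at e1
  simp only [dir, nab, dv_const, Pi.zero_apply, map_zero, add_zero, sum_const_zero, wK,
    curv_ad fun a => h.C.sm a x, smul_apply, _root_.sum_apply, mul_apply_eq_comp,
    ContinuousLinearMap.mul_apply', ad_apply] at e1
  have e3 := (h.C.cl x).weitz (V := V →L[ℝ] V) fun a b => nabE I e A b Q x * nabE I e A a Q x
  have e4 : ∀ a, ∑ b, P a b x • nabE I e A b Q x = nabE I e A a Q x :=
    fun a => h.F.projN (con_ad h.C.toCon) a Q x
  simp only [smul_eq_mul, ← smul_mul_assoc (P _ _ x), ← sum_mul, e4, mul_sum, ← mul_assoc (p x),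
    h.p_N, Q] at e3
  simp only [mul_assoc (ρ _ x), ← mul_sum] at e3
  simp only [← mul_assoc (ρ _ x) (nabE ..), ← sum_mul, h.har, zero_mul, mul_zero,
    sum_const_zero] at e3
  have q : Qf o p J ρ θ x * Qf o p J ρ θ x = Qf o p J ρ θ x := (h.pc x).Q_Q (h.cx x) (h.sd x)
  rw [Wz78.lap, eq_comm, neg_add_eq_zero] at e1
  rw [eq_comm, neg_add_eq_zero] at e3
  have e5 := fun a b => h.G_eq a b x
  simp only at e5
  simp only [← e5, K0, sum_add_distrib (g := fun a => nabE I e A a Q x * nabE I e A a Q x), Q]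
  erw [e1, e3]
  simp only [wK, sub_mul, add_mul, mul_add, mul_sub, sum_add_distrib, sum_sub_distrib,
    smul_mul_assoc, sum_mul, mul_sum, mul_assoc, q]
  module

/-- **the Weitzenboeck term on pure spinors** -/
theorem key (hg : ∀ k, g k x = ∑ a, Γ a k a x) {v : V} {f : ι → ι → ℝ}
    (hv : ∀ a b, tw I e c Γ p ρ A a b x v = f a b • J v) (w : V) : let Q := Qf o p J ρ θ
    ⟪(wK I e c ρ A x - K0 I e g A Q x) (Q x v), w⟫_ℝ =
      dot (fun a b => f a b + un I e c Γ θ a b x) (mm J (fun a => ρ a x) (Q x v) w) / 2 := by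
  intro Q
  have e1 : ∀ a b, tw I e c Γ p ρ A a b x (Q x v) = f a b • J (Q x v) := fun a b => by
    rw [← mul_apply_eq_comp, h.tw_Q, mul_apply_eq_comp, hv, map_smul, ← mul_apply_eq_comp,
      ← mul_apply_eq_comp]
    exact congrArg (fun T : V →L[ℝ] V => f a b • T v) (h.pc x).J_Q.symm
  rw [← mul_apply_eq_comp, h.key' hg]
  simp only [smul_apply, _root_.sum_apply, mul_apply_eq_comp, add_apply, e1, ← add_smul, map_smul,
    real_inner_smul_left, sum_inner, dot, mm, Q]
  ring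

/-- the derivative of a parallel pure spinor -/
theorem nab_eq (hu : ∀ y, SA I u y) (hq : ∀ y, Qf o p J ρ θ y (u y) = u y)
    (hn : ∀ a y, Qf o p J ρ θ y (nab I e A a u y) = 0) (a : ι) (x : M) :
    nab I e A a u x = nabE I e A a (Qf o p J ρ θ) x (u x) := by
  rw [h.op.nab hu hq, hn, add_zero]

theorem dir_eq (hu : ∀ y, SA I u y) (hq : ∀ y, Qf o p J ρ θ y (u y) = u y)
    (hn : ∀ a y, Qf o p J ρ θ y (nab I e A a u y) = 0) (x : M) : dir I e ρ A u x = 0 := by
  have := congrArg (· (u x)) (h.har x)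
  simpa [dir, h.nab_eq hu hq hn] using this

/-- **flatness** -/
theorem flat (hu : ∀ y, SA I u y) (hq : ∀ y, Qf o p J ρ θ y (u y) = u y)
    (hn : ∀ a y, Qf o p J ρ θ y (nab I e A a u y) = 0) (a b : ι) (x : M) :
    tw I e c Γ p ρ A a b x (u x) = -un I e c Γ θ a b x • J (u x) := by
  have e1 := congrArg (· (u x)) (h.G_eq a b x)
  have e2 := h.F.nab_comm (fun a => h.C.sm a x) a b (hu x)
  have e3 := congrArg (· (u x)) (h.F.nab_comm (fun a => (con_ad h.C.toCon).sm a x) a b (h.op.sm x))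
  have e4 : ∀ a b, nab I e A a (nab I e A b u) x = nabE I e A a (nabE I e A b (Qf o p J ρ θ)) x (u x)
      + nabE I e A b (Qf o p J ρ θ) x (nabE I e A a (Qf o p J ρ θ) x (u x)) := fun a b => by
    rw [_root_.funext (h.nab_eq hu hq hn b), nab_app' a
      (h.F.sNE (fun a => h.C.sm a x) b (h.op.sm x)) (hu x), h.nab_eq hu hq hn]
  simp only [curv_ad fun a => h.C.sm a x, ← nabE_eq, sub_apply, _root_.sum_apply, smul_apply,
    ad_apply, mul_apply_eq_comp, hq] at e3
  simp only [e4, h.nab_eq hu hq hn _ x] at e2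
  simp only [add_apply, sub_apply, smul_apply, mul_apply_eq_comp, hq] at e1
  rw [neg_smul, eq_neg_iff_add_eq_zero, ← e1]
  linear_combination (norm := module) e3 - e2

end TM

end Crest.Agent.X212.Taub88
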